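import Mathlib

/-!
# P334: greedy for k-median on instances of bounded distance ratio

If for every client the farthest facility is at most `ρ` times as far as the nearest one, the
greedy rule (open `k` times the facility that minimises the resulting connection cost) returns a
set of at most `k` facilities of cost at most `(1 + (ρ - 1) / e) * OPT_k`.
-/

namespace Vale.Agent.Results.P334.GreedyAspect

open Finset

variable {J F : Type} [Fintype J] [Fintype F] [DecidableEq F]

/-- connection cost of a facility set `S`: the sum over the clients `j` of `min_{i ∈ S} d j i`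
(the value `0` for `S = ∅` is a convention and is never used) -/
noncomputable def cost (d : J → F → ℝ) (S : Finset F) : ℝ :=
  ∑ j, if h : S.Nonempty then S.inf' h (d j) else 0

/-- a run of the greedy rule: start with no facility and repeatedly open a facility `i` for which
the cost of the enlarged set is smallest among all candidate facilities -/
def IsGreedyRun (d : J → F → ℝ) (S : ℕ → Finset F) : Prop :=
  S 0 = ∅ ∧ ∀ t, ∃ i, S (t + 1) = insert i (S t) ∧
    ∀ i', cost d (insert i (S t)) ≤ cost d (insert i' (S t))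

/-- distance of client `j` to `S`, capped by `M j` (which is the value for `S = ∅`) -/
noncomputable def capd (d : J → F → ℝ) (M : J → ℝ) (S : Finset F) (j : J) : ℝ :=
  if h : S.Nonempty then S.inf' h (d j) else M j

theorem capd_insert (d : J → F → ℝ) (M : J → ℝ) (hM : ∀ j i, d j i ≤ M j) (S : Finset F) (i : F)
    (j : J) : capd d M (insert i S) j = min (capd d M S j) (d j i) := by
  unfold capd
  rw [dif_pos (insert_nonempty i S)]
  by_cases h : S.Nonempty
  · rw [dif_pos h, inf'_insert h (d j), inf_comm]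
  · rw [dif_neg h]
    rw [not_nonempty_iff_eq_empty] at h
    subst h
    simp only [insert_empty_eq, inf'_singleton]
    exact (min_eq_right (hM j i)).symm

theorem cost_eq_capd (d : J → F → ℝ) (M : J → ℝ) (S : Finset F) (h : S.Nonempty) :
    cost d S = ∑ j, capd d M S j := by
  unfold cost capd
  simp [h]

/-- per client: the savings of the facilities of `O`, opened one at a time, add up to at least
`x - d(j, O)` -/
theorem client_saving (d : J → F → ℝ) (O : Finset F) (hO : O.Nonempty) (j : J) (x : ℝ) :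
    x - O.inf' hO (d j) ≤ ∑ i ∈ O, (x - min x (d j i)) := by
  obtain ⟨i0, hi0, h0⟩ := exists_mem_eq_inf' hO (d j)
  rw [h0]
  calc x - d j i0 ≤ x - min x (d j i0) := by linarith [min_le_right x (d j i0)]
    _ ≤ ∑ i ∈ O, (x - min x (d j i)) :=
      single_le_sum (f := fun i => x - min x (d j i))
        (fun i _ => by linarith [min_le_left x (d j i)]) hi0

/-- one greedy step closes at least a `1 / k` fraction of the gap to the cost of `O` -/
theorem step (d : J → F → ℝ) (M : J → ℝ) (hM : ∀ j i, d j i ≤ M j) (S O : Finset F)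
    (hO : O.Nonempty) (i : F)
    (hi : ∀ i', cost d (insert i S) ≤ cost d (insert i' S)) (k : ℕ) (hk : O.card ≤ k) :
    (∑ j, capd d M S j) - cost d O ≤ k * ((∑ j, capd d M S j) - cost d (insert i S)) := by
  have hc : ∀ i', cost d (insert i' S) = ∑ j, min (capd d M S j) (d j i') := by
    intro i'
    rw [cost_eq_capd d M _ (insert_nonempty i' S)]
    exact sum_congr rfl fun j _ => capd_insert d M hM S i' j
  have hO' : cost d O = ∑ j, O.inf' hO (d j) := by
    unfold cost
    simp [hO]
  have h1 : (∑ j, capd d M S j) - cost d O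
      ≤ ∑ i' ∈ O, ((∑ j, capd d M S j) - cost d (insert i' S)) := by
    calc (∑ j, capd d M S j) - cost d O
        = ∑ j, (capd d M S j - O.inf' hO (d j)) := by rw [hO', sum_sub_distrib]
      _ ≤ ∑ j, ∑ i' ∈ O, (capd d M S j - min (capd d M S j) (d j i')) :=
          sum_le_sum fun j _ => client_saving d O hO j _
      _ = ∑ i' ∈ O, ∑ j, (capd d M S j - min (capd d M S j) (d j i')) := sum_comm
      _ = ∑ i' ∈ O, ((∑ j, capd d M S j) - cost d (insert i' S)) := by
          refine sum_congr rfl fun i' _ => ?_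
          rw [hc i', sum_sub_distrib]
  have h2 : ∑ i' ∈ O, ((∑ j, capd d M S j) - cost d (insert i' S))
      ≤ ∑ _i' ∈ O, ((∑ j, capd d M S j) - cost d (insert i S)) :=
    sum_le_sum fun i' _ => by linarith [hi i']
  have h3 : 0 ≤ (∑ j, capd d M S j) - cost d (insert i S) := by
    rw [hc i, ← sum_sub_distrib]
    exact sum_nonneg fun j _ => by linarith [min_le_left (capd d M S j) (d j i)]
  rw [sum_const, nsmul_eq_mul] at h2
  have h4 : (O.card : ℝ) ≤ k := by exact_mod_cast hk
  nlinarith

theorem greedy_nonempty (d : J → F → ℝ) (S : ℕ → Finset F) (hS : IsGreedyRun d S) (t : ℕ) :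
    (S (t + 1)).Nonempty := by
  obtain ⟨i, hi, _⟩ := hS.2 t
  rw [hi]
  exact insert_nonempty _ _

theorem greedy_card (d : J → F → ℝ) (S : ℕ → Finset F) (hS : IsGreedyRun d S) (t : ℕ) :
    (S t).card ≤ t := by
  induction t with
  | zero => simp [hS.1]
  | succ t ih =>
    obtain ⟨i, hi, _⟩ := hS.2 t
    rw [hi]
    exact (card_insert_le _ _).trans (by omega)

/-- the gap to the cost of `O` decays geometrically along a greedy run -/
theorem gap_decay (d : J → F → ℝ) (M : J → ℝ) (hM : ∀ j i, d j i ≤ M j) (S : ℕ → Finset F)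
    (hS : IsGreedyRun d S) (O : Finset F) (hO : O.Nonempty) (k : ℕ) (hk1 : 1 ≤ k)
    (hk : O.card ≤ k) (t : ℕ) :
    (∑ j, capd d M (S t) j) - cost d O ≤ (1 - 1 / (k : ℝ)) ^ t * ((∑ j, M j) - cost d O) := by
  have hkpos : (0 : ℝ) < k := by exact_mod_cast hk1
  have hq : (0 : ℝ) ≤ 1 - 1 / (k : ℝ) := by
    have : 1 / (k : ℝ) ≤ 1 := by
      rw [div_le_one hkpos]
      exact_mod_cast hk1
    linarith
  induction t with
  | zero =>
    have : ∀ j, capd d M (S 0) j = M j := by
      intro j
      simp [capd, hS.1]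
    simp [this]
  | succ t ih =>
    obtain ⟨i, hi, hmin⟩ := hS.2 t
    have hst := step d M hM (S t) O hO i hmin k hk
    have hc : cost d (insert i (S t)) = ∑ j, capd d M (S (t + 1)) j := by
      rw [hi]
      exact cost_eq_capd d M _ (insert_nonempty _ _)
    rw [hc] at hst
    set a := ∑ j, capd d M (S t) j with ha
    set b := ∑ j, capd d M (S (t + 1)) j with hb
    set o := cost d O with ho
    have h5 : b - o ≤ (1 - 1 / (k : ℝ)) * (a - o) := by
      have : (a - o) / k ≤ a - b := by
        rw [div_le_iff₀ hkpos]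
        linarith
      have h6 : (1 - 1 / (k : ℝ)) * (a - o) = (a - o) - (a - o) / k := by ring
      rw [h6]
      linarith
    calc b - o ≤ (1 - 1 / (k : ℝ)) * (a - o) := h5
      _ ≤ (1 - 1 / (k : ℝ)) * ((1 - 1 / (k : ℝ)) ^ t * ((∑ j, M j) - o)) :=
          mul_le_mul_of_nonneg_left ih hq
      _ = (1 - 1 / (k : ℝ)) ^ (t + 1) * ((∑ j, M j) - o) := by ring

theorem exists_greedy [Nonempty F] (d : J → F → ℝ) : ∃ S : ℕ → Finset F, IsGreedyRun d S := by
  classical
  have hch : ∀ T : Finset F, ∃ i, ∀ i', cost d (insert i T) ≤ cost d (insert i' T) := by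
    intro T
    obtain ⟨i, _, hi⟩ := exists_min_image univ (fun i => cost d (insert i T)) univ_nonempty
    exact ⟨i, fun i' => hi i' (mem_univ _)⟩
  choose f hf using hch
  exact ⟨fun t => Nat.rec ∅ (fun _ T => insert (f T) T) t, rfl, fun t => ⟨f _, rfl, hf _⟩⟩

theorem greedy_bound (d : J → F → ℝ) (ρ : ℝ) (hρ : ∀ j i i', d j i ≤ ρ * d j i')
    (S : ℕ → Finset F) (hS : IsGreedyRun d S) (k : ℕ) (hk1 : 1 ≤ k) (O : Finset F)
    (hO : O.Nonempty) (hk : O.card ≤ k) :
    cost d (S k) ≤ (1 + (ρ - 1) / Real.exp 1) * cost d O := by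
  obtain ⟨i0, _⟩ := hO
  have hne : (univ : Finset F).Nonempty := ⟨i0, mem_univ _⟩
  set M : J → ℝ := fun j => univ.sup' hne (d j) with hMdef
  have hM : ∀ j i, d j i ≤ M j := fun j i => le_sup' (d j) (mem_univ i)
  have hO : O.Nonempty := ⟨i0, by assumption⟩
  have hO' : cost d O = ∑ j, O.inf' hO (d j) := by
    unfold cost
    simp [hO]
  have hlow : cost d O ≤ ∑ j, M j := by
    rw [hO']
    refine sum_le_sum fun j _ => ?_
    obtain ⟨i1, _, h1⟩ := exists_mem_eq_inf' hO (d j)
    rw [h1]
    exact hM j i1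
  have hup : ∑ j, M j ≤ ρ * cost d O := by
    rw [hO', mul_sum]
    refine sum_le_sum fun j _ => ?_
    obtain ⟨i1, _, h1⟩ := exists_mem_eq_inf' hO (d j)
    obtain ⟨i2, _, h2⟩ := exists_mem_eq_sup' hne (d j)
    rw [h1, hMdef]
    simp only
    rw [h2]
    exact hρ j i2 i1
  have hdec := gap_decay d M hM S hS O hO k hk1 hk k
  obtain ⟨t, rfl⟩ : ∃ t, k = t + 1 := ⟨k - 1, by omega⟩
  rw [← cost_eq_capd d M _ (greedy_nonempty d S hS t)] at hdec
  have hexp : (1 - 1 / ((t + 1 : ℕ) : ℝ)) ^ (t + 1) ≤ Real.exp (-1) :=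
    Real.one_sub_div_pow_le_exp_neg (by exact_mod_cast hk1)
  have h1 : (1 - 1 / ((t + 1 : ℕ) : ℝ)) ^ (t + 1) * ((∑ j, M j) - cost d O)
      ≤ Real.exp (-1) * ((ρ - 1) * cost d O) := by
    calc (1 - 1 / ((t + 1 : ℕ) : ℝ)) ^ (t + 1) * ((∑ j, M j) - cost d O)
        ≤ Real.exp (-1) * ((∑ j, M j) - cost d O) :=
          mul_le_mul_of_nonneg_right hexp (by linarith)
      _ ≤ Real.exp (-1) * ((ρ - 1) * cost d O) :=
          mul_le_mul_of_nonneg_left (by linarith) (Real.exp_pos _).le
  have h2 : (1 + (ρ - 1) / Real.exp 1) * cost d O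
      = cost d O + Real.exp (-1) * ((ρ - 1) * cost d O) := by
    rw [Real.exp_neg]
    field_simp
  rw [h2]
  linarith

/-- **Greedy for `k`-median on instances of bounded distance ratio.** -/
theorem result :
    (∀ (J F : Type) [Fintype J] [Fintype F] [DecidableEq F] (d : J → F → ℝ) (ρ : ℝ),
      (∀ j i i', d j i ≤ ρ * d j i') →
      ∀ S : ℕ → Finset F, IsGreedyRun d S → ∀ k : ℕ, 1 ≤ k →
        (S k).Nonempty ∧ (S k).card ≤ k ∧
        ∀ O : Finset F, O.Nonempty → O.card ≤ k →
          cost d (S k) ≤ (1 + (ρ - 1) / Real.exp 1) * cost d O) ∧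
    (∀ (J F : Type) [Fintype J] [Fintype F] [DecidableEq F] [Nonempty F] (d : J → F → ℝ),
      ∃ S : ℕ → Finset F, IsGreedyRun d S) ∧
    (∀ ρ : ℝ, ρ < 1 + Real.exp 1 → 1 + (ρ - 1) / Real.exp 1 < 2) := by
  refine ⟨?_, ?_, ?_⟩
  · intro J F _ _ _ d ρ hρ S hS k hk1
    refine ⟨?_, greedy_card d S hS k, fun O hO hk => greedy_bound d ρ hρ S hS k hk1 O hO hk⟩
    obtain ⟨t, rfl⟩ : ∃ t, k = t + 1 := ⟨k - 1, by omega⟩
    exact greedy_nonempty d S hS t
  · intro J F _ _ _ _ d
    exact exists_greedy d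
  · intro ρ hρ
    have he := Real.exp_pos 1
    have : (ρ - 1) / Real.exp 1 < 1 := by
      rw [div_lt_one he]
      linarith
    linarith

end Vale.Agent.Results.P334.GreedyAspect
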