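import Mathlib

/-!
# P334: greedy for metric k-median on instances of bounded client distance ratio

If every client `j` satisfies `d(j,i) ≤ ρ d(j,i')` for all facilities `i, i'`, then the greedy
algorithm (`k` rounds, each adding the facility that minimises the cost) returns a set of cost at
most `(1 + (ρ - 1)(1 - 1/k)^k) OPT_k ≤ (1 + (ρ - 1)/e) OPT_k`.
-/

namespace Vale.Agent.Results.P334.GreedyBoundedRatio

open Finset

variable {X : Type*} [MetricSpace X] [DecidableEq X]

/-- `d(j,S) = min_{i ∈ S} d(j,i)` (and `0` for the empty set, a junk value). -/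
noncomputable def distTo (j : X) (S : Finset X) : ℝ :=
  if h : S.Nonempty then S.inf' h (fun i => dist j i) else 0

/-- `cost(S) = ∑_{j ∈ J} d(j,S)`. -/
noncomputable def cost (J S : Finset X) : ℝ := ∑ j ∈ J, distTo j S

/-- The set `{g 0, ..., g (t-1)}` of the first `t` choices. -/
def chosen (g : ℕ → X) (t : ℕ) : Finset X := (Finset.range t).image g

/-- `g` is a run of `k` rounds of the greedy algorithm: in round `t` the facility `g t ∈ F` is
such that adding it to the facilities chosen before gives the least possible cost. -/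
def IsGreedyRun (J F : Finset X) (k : ℕ) (g : ℕ → X) : Prop :=
  ∀ t < k, g t ∈ F ∧
    ∀ i ∈ F, cost J (insert (g t) (chosen g t)) ≤ cost J (insert i (chosen g t))

/-! ### auxiliary: capped distances -/

/-- distance to `G` capped at `M` (a phantom facility at distance `M`) -/
noncomputable def cd (M : ℝ) (j : X) (G : Finset X) : ℝ := G.fold min M (fun i => dist j i)

omit [DecidableEq X] in
theorem cd_empty (M : ℝ) (j : X) : cd M j ∅ = M := rfl

theorem cd_insert (M : ℝ) (j i : X) (G : Finset X) :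
    cd M j (insert i G) = min (dist j i) (cd M j G) := by
  unfold cd
  rw [Finset.fold_insert_idem]

omit [DecidableEq X] in
theorem cd_eq_distTo (M : ℝ) (j : X) (G : Finset X) (hG : G.Nonempty)
    (hM : ∀ i ∈ G, dist j i ≤ M) : cd M j G = distTo j G := by
  unfold cd distTo
  rw [dif_pos hG]
  apply le_antisymm
  · obtain ⟨i, hi, hi'⟩ := Finset.exists_mem_eq_inf' hG (fun i => dist j i)
    rw [Finset.fold_min_le]
    exact Or.inr ⟨i, hi, hi'.ge⟩
  · rw [Finset.le_fold_min]
    refine ⟨?_, fun x hx => Finset.inf'_le _ hx⟩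
    obtain ⟨i, hi⟩ := hG
    exact (Finset.inf'_le _ hi).trans (hM i hi)

omit [DecidableEq X] in
theorem distTo_mem (j : X) (S : Finset X) (hS : S.Nonempty) :
    ∃ i ∈ S, distTo j S = dist j i := by
  unfold distTo
  rw [dif_pos hS]
  exact Finset.exists_mem_eq_inf' hS (fun i => dist j i)

omit [DecidableEq X] in
theorem distTo_nonneg (j : X) (S : Finset X) : 0 ≤ distTo j S := by
  by_cases hS : S.Nonempty
  · obtain ⟨i, -, h⟩ := distTo_mem j S hS
    rw [h]; exact dist_nonneg
  · unfold distTo; rw [dif_neg hS]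

omit [DecidableEq X] in
theorem cost_nonneg (J S : Finset X) : 0 ≤ cost J S :=
  Finset.sum_nonneg (fun j _ => distTo_nonneg j S)

/-- per client: the gain of the whole of `S` is at most the sum of the single gains -/
theorem client_gain (M : ℝ) (j : X) (G S : Finset X) (hS : S.Nonempty) :
    cd M j G - distTo j S ≤ ∑ i ∈ S, (cd M j G - cd M j (insert i G)) := by
  obtain ⟨i0, hi0, h0⟩ := distTo_mem j S hS
  have hnn : ∀ i ∈ S, 0 ≤ cd M j G - cd M j (insert i G) := by
    intro i _
    rw [cd_insert]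
    have := min_le_right (dist j i) (cd M j G)
    linarith
  have h1 : cd M j G - cd M j (insert i0 G) ≤ ∑ i ∈ S, (cd M j G - cd M j (insert i G)) :=
    Finset.single_le_sum (f := fun i => cd M j G - cd M j (insert i G)) hnn hi0
  have h2 : cd M j (insert i0 G) ≤ dist j i0 := by
    rw [cd_insert]; exact min_le_left _ _
  rw [h0]
  linarith

omit [MetricSpace X] in
theorem chosen_succ (g : ℕ → X) (t : ℕ) : chosen g (t + 1) = insert (g t) (chosen g t) := by
  unfold chosen
  rw [Finset.range_add_one, Finset.image_insert]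

theorem chosen_subset {J F : Finset X} {k : ℕ} {g : ℕ → X} (hg : IsGreedyRun J F k g)
    (t : ℕ) (ht : t ≤ k) : chosen g t ⊆ F := by
  intro x hx
  unfold chosen at hx
  rw [Finset.mem_image] at hx
  obtain ⟨s, hs, rfl⟩ := hx
  exact (hg s (lt_of_lt_of_le (Finset.mem_range.mp hs) ht)).1

/-- a greedy run exists -/
theorem exists_run (J F : Finset X) (hF : F.Nonempty) (k : ℕ) : ∃ g, IsGreedyRun J F k g := by
  classical
  have hstep : ∀ G : Finset X, ∃ i ∈ F, ∀ i' ∈ F, cost J (insert i G) ≤ cost J (insert i' G) :=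
    fun G => Finset.exists_min_image F (fun i => cost J (insert i G)) hF
  choose step hstepF hstepmin using hstep
  let Gs : ℕ → Finset X := fun t => Nat.rec ∅ (fun _ G => insert (step G) G) t
  have hGs : ∀ t, Gs (t + 1) = insert (step (Gs t)) (Gs t) := fun t => rfl
  refine ⟨fun t => step (Gs t), ?_⟩
  have hch : ∀ t, chosen (fun t => step (Gs t)) t = Gs t := by
    intro t
    induction t with
    | zero => rfl
    | succ t ih => rw [chosen_succ, ih, hGs]
  intro t _
  rw [hch]
  exact ⟨hstepF _, hstepmin _⟩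

/-- the main estimate -/
theorem main (J F : Finset X) (k : ℕ) (hk : 1 ≤ k) (ρ : ℝ)
    (hratio : ∀ j ∈ J, ∀ i ∈ F, ∀ i' ∈ F, dist j i ≤ ρ * dist j i')
    (g : ℕ → X) (hg : IsGreedyRun J F k g)
    (S : Finset X) (hSF : S ⊆ F) (hS : S.Nonempty) (hSk : S.card ≤ k) :
    cost J (chosen g k) ≤ (1 + (ρ - 1) * (1 - 1 / (k : ℝ)) ^ k) * cost J S := by
  have hk0 : (0 : ℝ) < k := by exact_mod_cast hk
  -- the caps
  set M : X → ℝ := fun j => ρ * distTo j S with hM
  have hcap : ∀ j ∈ J, ∀ i ∈ F, dist j i ≤ M j := by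
    intro j hj i hi
    obtain ⟨i', hi', h'⟩ := distTo_mem j S hS
    simp only [hM, h']
    exact hratio j hj i hi i' (hSF hi')
  set C : Finset X → ℝ := fun G => ∑ j ∈ J, cd (M j) j G with hC
  have hCcost : ∀ G : Finset X, G.Nonempty → G ⊆ F → C G = cost J G := by
    intro G hG hGF
    simp only [hC, cost]
    refine Finset.sum_congr rfl (fun j hj => ?_)
    exact cd_eq_distTo _ _ _ hG (fun i hi => hcap j hj i (hGF hi))
  have hC0 : C ∅ = ρ * cost J S := by
    simp only [hC, cd_empty, hM, cost, Finset.mul_sum]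
  -- one round
  have hround : ∀ t < k, C (chosen g (t + 1)) - cost J S
      ≤ (1 - 1 / (k : ℝ)) * (C (chosen g t) - cost J S) := by
    intro t ht
    set G := chosen g t with hG
    have hGF : G ⊆ F := chosen_subset hg t ht.le
    obtain ⟨hgF, hgmin⟩ := hg t ht
    rw [chosen_succ]
    set δ := C G - C (insert (g t) G) with hδ
    have hins : ∀ i ∈ F, C (insert i G) = cost J (insert i G) := fun i hi =>
      hCcost _ (Finset.insert_nonempty _ _) (Finset.insert_subset hi hGF)
    have hδi : ∀ i ∈ S, C G - C (insert i G) ≤ δ := by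
      intro i hi
      have := hgmin i (hSF hi)
      rw [← hins i (hSF hi), ← hins (g t) hgF] at this
      simp only [hδ]
      linarith
    have hδ0 : 0 ≤ δ := by
      simp only [hδ, hC, ← Finset.sum_sub_distrib]
      refine Finset.sum_nonneg (fun j _ => ?_)
      rw [cd_insert]
      have := min_le_right (dist j (g t)) (cd (M j) j G)
      linarith
    have hsum : C G - cost J S ≤ ∑ i ∈ S, (C G - C (insert i G)) := by
      have h1 : C G - cost J S = ∑ j ∈ J, (cd (M j) j G - distTo j S) := by
        simp only [hC, cost, Finset.sum_sub_distrib]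
      have h2 : ∑ i ∈ S, (C G - C (insert i G))
          = ∑ j ∈ J, ∑ i ∈ S, (cd (M j) j G - cd (M j) j (insert i G)) := by
        rw [Finset.sum_comm]
        refine Finset.sum_congr rfl (fun i _ => ?_)
        simp only [hC, Finset.sum_sub_distrib]
      rw [h1, h2]
      exact Finset.sum_le_sum (fun j _ => client_gain _ _ _ _ hS)
    have hsum2 : ∑ i ∈ S, (C G - C (insert i G)) ≤ (k : ℝ) * δ := by
      calc ∑ i ∈ S, (C G - C (insert i G)) ≤ ∑ _i ∈ S, δ := Finset.sum_le_sum hδi
        _ = (S.card : ℝ) * δ := by rw [Finset.sum_const, nsmul_eq_mul]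
        _ ≤ (k : ℝ) * δ := by
            apply mul_le_mul_of_nonneg_right _ hδ0
            exact_mod_cast hSk
    have hkey : (C G - cost J S) / k ≤ δ := by
      rw [div_le_iff₀ hk0]
      linarith
    have : C (insert (g t) G) = C G - δ := by simp only [hδ]; ring
    rw [this]
    have e : (1 - 1 / (k : ℝ)) * (C G - cost J S) = (C G - cost J S) - (C G - cost J S) / k := by
      ring
    rw [e]
    linarith
  have hq : (0 : ℝ) ≤ 1 - 1 / (k : ℝ) := by
    rw [sub_nonneg, div_le_one hk0]
    exact_mod_cast hk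
  have hind : ∀ t ≤ k, C (chosen g t) - cost J S
      ≤ (1 - 1 / (k : ℝ)) ^ t * (C ∅ - cost J S) := by
    intro t
    induction t with
    | zero => intro _; simp [chosen]
    | succ t ih =>
      intro ht
      have h1 := hround t ht
      have h2 := ih (Nat.le_of_succ_le ht)
      calc C (chosen g (t + 1)) - cost J S
          ≤ (1 - 1 / (k : ℝ)) * (C (chosen g t) - cost J S) := h1
        _ ≤ (1 - 1 / (k : ℝ)) * ((1 - 1 / (k : ℝ)) ^ t * (C ∅ - cost J S)) :=
            mul_le_mul_of_nonneg_left h2 hq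
        _ = (1 - 1 / (k : ℝ)) ^ (t + 1) * (C ∅ - cost J S) := by ring
  have hfin := hind k le_rfl
  have hne : (chosen g k).Nonempty := by
    refine ⟨g 0, ?_⟩
    unfold chosen
    exact Finset.mem_image_of_mem g (Finset.mem_range.mpr hk)
  rw [hCcost _ hne (chosen_subset hg k le_rfl), hC0] at hfin
  nlinarith [hfin]

/-- **Greedy on instances of bounded client distance ratio.**  Let `J` (clients) and `F`
(facilities) be finite subsets of a metric space, `k ≥ 1`, `ρ ≥ 1`, and assume that
`d(j,i) ≤ ρ d(j,i')` for every client `j` and all facilities `i, i'`.  Greedy runs exist, and the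
set `G` of the `k` facilities chosen by any greedy run is a feasible solution with
`cost(G) ≤ (1 + (ρ-1)(1-1/k)^k) cost(S) ≤ (1 + (ρ-1)/e) cost(S)` for every feasible `S`. -/
theorem result (J F : Finset X) (k : ℕ) (hk : 1 ≤ k) (ρ : ℝ) (hρ : 1 ≤ ρ) (hF : F.Nonempty)
    (hratio : ∀ j ∈ J, ∀ i ∈ F, ∀ i' ∈ F, dist j i ≤ ρ * dist j i') :
    (∃ g, IsGreedyRun J F k g) ∧
    ∀ g, IsGreedyRun J F k g →
      (chosen g k ⊆ F ∧ 1 ≤ (chosen g k).card ∧ (chosen g k).card ≤ k) ∧
      ∀ S : Finset X, S ⊆ F → 1 ≤ S.card → S.card ≤ k →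
        cost J (chosen g k) ≤ (1 + (ρ - 1) * (1 - 1 / (k : ℝ)) ^ k) * cost J S ∧
        (1 + (ρ - 1) * (1 - 1 / (k : ℝ)) ^ k) * cost J S
          ≤ (1 + (ρ - 1) * Real.exp (-1)) * cost J S := by
  refine ⟨exists_run J F hF k, fun g hg => ⟨⟨chosen_subset hg k le_rfl, ?_, ?_⟩, ?_⟩⟩
  · rw [Nat.one_le_iff_ne_zero, Finset.card_ne_zero]
    refine ⟨g 0, ?_⟩
    unfold chosen
    exact Finset.mem_image_of_mem g (Finset.mem_range.mpr hk)
  · unfold chosen
    exact Finset.card_image_le.trans (by simp)
  · intro S hSF hS1 hSk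
    have hS : S.Nonempty := Finset.card_pos.mp hS1
    refine ⟨main J F k hk ρ hratio g hg S hSF hS hSk, ?_⟩
    apply mul_le_mul_of_nonneg_right _ (cost_nonneg J S)
    have hk0 : (0 : ℝ) < k := by exact_mod_cast hk
    have hq : (0 : ℝ) ≤ 1 - 1 / (k : ℝ) := by
      rw [sub_nonneg, div_le_one hk0]
      exact_mod_cast hk
    have h1 : 1 - 1 / (k : ℝ) ≤ Real.exp (-(1 / (k : ℝ))) := by
      have := Real.add_one_le_exp (-(1 / (k : ℝ)))
      linarith
    have h2 : (1 - 1 / (k : ℝ)) ^ k ≤ Real.exp (-1) := by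
      calc (1 - 1 / (k : ℝ)) ^ k ≤ (Real.exp (-(1 / (k : ℝ)))) ^ k := pow_le_pow_left₀ hq h1 k
        _ = Real.exp (-1) := by
            rw [← Real.exp_nat_mul]
            congr 1
            field_simp
    have := mul_le_mul_of_nonneg_left h2 (sub_nonneg.mpr hρ)
    linarith

end Vale.Agent.Results.P334.GreedyBoundedRatio
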