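import Mathlib

/-!
# P334: on two-distance instances (the instances of the known hardness reduction) greedy attains `1 + 2/e`
-/

open Finset

namespace Vale.Agent.Results.P334.TwoDistanceGreedy

variable {V : Type*} [MetricSpace V] [DecidableEq V]

/-- `d(j,S) = min_{i ∈ S} d(j,i)` for nonempty `S` (and `0` for `S = ∅`, never used). -/
noncomputable def dmin (j : V) (S : Finset V) : ℝ :=
  if h : S.Nonempty then S.inf' h (fun i => dist j i) else 0

/-- `cost(S) = ∑_{j ∈ J} d(j,S)`. -/
noncomputable def cost (J S : Finset V) : ℝ := ∑ j ∈ J, dmin j S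

open Classical in
/-- the clients at the short distance `a` from some facility of `S` -/
noncomputable def cov (J : Finset V) (a : ℝ) (S : Finset V) : Finset V :=
  J.filter (fun j => ∃ i ∈ S, dist j i = a)

open Classical in
lemma dmin_eq {J F S : Finset V} {a b : ℝ} (hab : a ≤ b)
    (hd : ∀ j ∈ J, ∀ i ∈ F, dist j i = a ∨ dist j i = b) (hS : S.Nonempty) (hSF : S ⊆ F)
    {j : V} (hj : j ∈ J) : dmin j S = if (∃ i ∈ S, dist j i = a) then a else b := by
  unfold dmin
  rw [dif_pos hS]
  split_ifs with h
  · obtain ⟨i0, hi0, hi0a⟩ := h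
    apply le_antisymm
    · calc S.inf' hS (fun i => dist j i) ≤ dist j i0 := Finset.inf'_le _ hi0
        _ = a := hi0a
    · apply Finset.le_inf'
      intro i hi
      rcases hd j hj i (hSF hi) with h1 | h1 <;> rw [h1]
      exact hab
  · have hall : ∀ i ∈ S, dist j i = b := by
      intro i hi
      rcases hd j hj i (hSF hi) with h1 | h1
      · exact absurd ⟨i, hi, h1⟩ h
      · exact h1
    obtain ⟨i0, hi0⟩ := hS
    apply le_antisymm
    · calc S.inf' ⟨i0, hi0⟩ (fun i => dist j i) ≤ dist j i0 := Finset.inf'_le _ hi0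
        _ = b := hall i0 hi0
    · apply Finset.le_inf'
      intro i hi
      rw [hall i hi]

lemma cost_eq {J F S : Finset V} {a b : ℝ} (hab : a ≤ b)
    (hd : ∀ j ∈ J, ∀ i ∈ F, dist j i = a ∨ dist j i = b) (hS : S.Nonempty) (hSF : S ⊆ F) :
    cost J S = b * J.card - (b - a) * (cov J a S).card := by
  classical
  unfold cost
  rw [Finset.sum_congr rfl (fun j hj => dmin_eq hab hd hS hSF hj), Finset.sum_ite,
    Finset.sum_const, Finset.sum_const, nsmul_eq_mul, nsmul_eq_mul]
  have h1 : (J.filter (fun j => ∃ i ∈ S, dist j i = a)).card +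
      (J.filter (fun j => ¬ ∃ i ∈ S, dist j i = a)).card = J.card :=
    Finset.card_filter_add_card_filter_not _
  have h2 : ((J.filter (fun j => ¬ ∃ i ∈ S, dist j i = a)).card : ℝ) =
      J.card - (J.filter (fun j => ∃ i ∈ S, dist j i = a)).card := by
    rw [← h1]; push_cast; ring
  have h3 : cov J a S = J.filter (fun j => ∃ i ∈ S, dist j i = a) := by
    unfold cov; congr
  rw [h2, h3]
  ring

lemma cov_mono (J : Finset V) (a : ℝ) {S T : Finset V} (h : S ⊆ T) : cov J a S ⊆ cov J a T := by
  intro j hj
  simp only [cov, mem_filter] at hj ⊢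
  obtain ⟨hjJ, i, hi, hia⟩ := hj
  exact ⟨hjJ, i, h hi, hia⟩

/-- coverage is subadditive over the facilities of `T` -/
lemma cov_card_le (J : Finset V) (a : ℝ) (S T : Finset V) :
    ((cov J a T).card : ℝ) ≤ (cov J a S).card +
      ∑ i ∈ T, (((cov J a (insert i S)).card : ℝ) - (cov J a S).card) := by
  have hsub : cov J a T ⊆ cov J a S ∪ T.biUnion (fun i => cov J a (insert i S) \ cov J a S) := by
    intro j hj
    by_cases hjS : j ∈ cov J a S
    · exact mem_union_left _ hjS
    · apply mem_union_right
      simp only [cov, mem_filter] at hj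
      obtain ⟨hjJ, i, hi, hia⟩ := hj
      rw [mem_biUnion]
      refine ⟨i, hi, ?_⟩
      rw [mem_sdiff]
      refine ⟨?_, hjS⟩
      simp only [cov, mem_filter]
      exact ⟨hjJ, i, mem_insert_self i S, hia⟩
  have h1 : (cov J a T).card ≤ (cov J a S).card +
      ∑ i ∈ T, (cov J a (insert i S) \ cov J a S).card :=
    le_trans (card_le_card hsub) (le_trans (card_union_le _ _)
      (Nat.add_le_add_left card_biUnion_le _))
  have h2 : ∀ i ∈ T, ((cov J a (insert i S) \ cov J a S).card : ℝ) =
      ((cov J a (insert i S)).card : ℝ) - (cov J a S).card := by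
    intro i _
    have hs : cov J a S ⊆ cov J a (insert i S) := cov_mono J a (subset_insert i S)
    have := Finset.card_sdiff_add_card_eq_card hs
    rw [← this]; push_cast; ring
  calc ((cov J a T).card : ℝ) ≤ ((cov J a S).card : ℝ) +
      ∑ i ∈ T, ((cov J a (insert i S) \ cov J a S).card : ℝ) := by exact_mod_cast h1
    _ = _ := by rw [Finset.sum_congr rfl h2]


lemma cov_empty (J : Finset V) (a : ℝ) : cov J a ∅ = ∅ := by
  simp [cov]

/-- one greedy step gains at least a `1/k` fraction of the missing (weighted) coverage -/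
lemma step {J F S T : Finset V} {a b : ℝ} (hab : a ≤ b)
    (hd : ∀ j ∈ J, ∀ i ∈ F, dist j i = a ∨ dist j i = b) (hSF : S ⊆ F) (hTF : T ⊆ F)
    {k : ℕ} (hTk : T.card ≤ k) {x : V} (hx : x ∈ F)
    (hmin : ∀ i ∈ F, cost J (insert x S) ≤ cost J (insert i S)) :
    (b - a) * (cov J a T).card - (b - a) * (cov J a S).card ≤
      k * ((b - a) * (cov J a (insert x S)).card - (b - a) * (cov J a S).card) := by
  have hw : 0 ≤ b - a := by linarith
  have hins : ∀ i ∈ F, (b - a) * (cov J a (insert i S)).card ≤
      (b - a) * (cov J a (insert x S)).card := by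
    intro i hi
    have h1 := hmin i hi
    rw [cost_eq hab hd (insert_nonempty x S) (insert_subset hx hSF),
      cost_eq hab hd (insert_nonempty i S) (insert_subset hi hSF)] at h1
    linarith
  have hΔ : 0 ≤ (b - a) * (cov J a (insert x S)).card - (b - a) * (cov J a S).card := by
    have : ((cov J a S).card : ℝ) ≤ (cov J a (insert x S)).card := by
      exact_mod_cast card_le_card (cov_mono J a (subset_insert x S))
    nlinarith
  have h2 := mul_le_mul_of_nonneg_left (cov_card_le J a S T) hw
  rw [mul_add, Finset.mul_sum] at h2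
  have h3 : ∑ i ∈ T, (b - a) * (((cov J a (insert i S)).card : ℝ) - (cov J a S).card) ≤
      ∑ _i ∈ T, ((b - a) * (cov J a (insert x S)).card - (b - a) * (cov J a S).card) := by
    apply Finset.sum_le_sum
    intro i hi
    have := hins i (hTF hi)
    rw [mul_sub]
    linarith
  rw [Finset.sum_const, nsmul_eq_mul] at h3
  have h4 : (T.card : ℝ) * ((b - a) * (cov J a (insert x S)).card - (b - a) * (cov J a S).card) ≤
      k * ((b - a) * (cov J a (insert x S)).card - (b - a) * (cov J a S).card) := by
    apply mul_le_mul_of_nonneg_right _ hΔ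
    exact_mod_cast hTk
  linarith

lemma pow_le_exp {k : ℕ} (hk : 1 ≤ k) : (1 - 1 / (k : ℝ)) ^ k ≤ Real.exp (-1) := by
  have hk0 : (0 : ℝ) < k := by exact_mod_cast hk
  have hk1 : (1 : ℝ) ≤ k := by exact_mod_cast hk
  have h0 : 0 ≤ 1 - 1 / (k : ℝ) := by
    rw [sub_nonneg, div_le_one hk0]; exact hk1
  have h1 : 1 - 1 / (k : ℝ) ≤ Real.exp (-(1 / (k : ℝ))) := by
    have := Real.add_one_le_exp (-(1 / (k : ℝ)))
    linarith
  calc (1 - 1 / (k : ℝ)) ^ k ≤ (Real.exp (-(1 / (k : ℝ)))) ^ k := pow_le_pow_left₀ h0 h1 k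
    _ = Real.exp ((k : ℝ) * (-(1 / (k : ℝ)))) := (Real.exp_nat_mul _ k).symm
    _ = Real.exp (-1) := by congr 1; field_simp

/-- the sequence of sets produced by a selection rule `c` (proof helper) -/
def greedySeq (c : Finset V → V) : ℕ → Finset V
  | 0 => ∅
  | t + 1 => insert (c (greedySeq c t)) (greedySeq c t)

lemma greedySeq_zero (c : Finset V → V) : greedySeq c 0 = ∅ := rfl

lemma greedySeq_succ (c : Finset V → V) (t : ℕ) :
    greedySeq c (t + 1) = insert (c (greedySeq c t)) (greedySeq c t) := rfl

/-- **Greedy on two-distance instances.**  Let `J` (clients) and `F` (facilities) be finite subsets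
of a metric space such that every client-facility distance is `a` or `b`, `0 < a ≤ b`.
(1) Greedy runs exist.  (2) If `S 0 = ∅` and `S (t+1) = S t ∪ {g t}` where `g t ∈ F` minimises
`cost (S t ∪ {i})` over `i ∈ F` (`t < k`), then `S k` is a feasible solution and
`cost (S k) ≤ (1 + (b/a - 1)/e) cost T` for every feasible `T`; in particular the factor is
`1 + 2/e` when `b ≤ 3a`. -/
theorem result (J F : Finset V) (a b : ℝ) (ha : 0 < a) (hab : a ≤ b)
    (hd : ∀ j ∈ J, ∀ i ∈ F, dist j i = a ∨ dist j i = b) (hF : F.Nonempty)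
    (k : ℕ) (hk : 1 ≤ k) :
    (∃ (g : ℕ → V) (S : ℕ → Finset V), S 0 = ∅ ∧ (∀ t < k, S (t + 1) = insert (g t) (S t)) ∧
      (∀ t < k, g t ∈ F) ∧
      (∀ t < k, ∀ i ∈ F, cost J (insert (g t) (S t)) ≤ cost J (insert i (S t)))) ∧
    ∀ (g : ℕ → V) (S : ℕ → Finset V), S 0 = ∅ → (∀ t < k, S (t + 1) = insert (g t) (S t)) →
      (∀ t < k, g t ∈ F) →
      (∀ t < k, ∀ i ∈ F, cost J (insert (g t) (S t)) ≤ cost J (insert i (S t))) →
      S k ⊆ F ∧ 1 ≤ (S k).card ∧ (S k).card ≤ k ∧
      ∀ T : Finset V, T ⊆ F → 1 ≤ T.card → T.card ≤ k →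
        cost J (S k) ≤ (1 + (b / a - 1) * Real.exp (-1)) * cost J T ∧
        (b ≤ 3 * a → cost J (S k) ≤ (1 + 2 * Real.exp (-1)) * cost J T) := by
  constructor
  · have hch : ∀ T : Finset V, ∃ x ∈ F, ∀ i ∈ F, cost J (insert x T) ≤ cost J (insert i T) :=
      fun T => Finset.exists_min_image F (fun i => cost J (insert i T)) hF
    choose c hcF hcmin using hch
    exact ⟨fun t => c (greedySeq c t), greedySeq c, greedySeq_zero c,
      fun t _ => greedySeq_succ c t, fun t _ => hcF _, fun t _ i hi => hcmin _ i hi⟩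
  · intro g S hS0 hSs hgF hgreedy
    have hSF : ∀ t ≤ k, S t ⊆ F := by
      intro t
      induction t with
      | zero => intro _; rw [hS0]; exact empty_subset F
      | succ t ih =>
        intro ht
        rw [hSs t (by omega)]
        exact insert_subset (hgF t (by omega)) (ih (by omega))
    have hScard : ∀ t ≤ k, (S t).card ≤ t := by
      intro t
      induction t with
      | zero => intro _; rw [hS0]; simp
      | succ t ih =>
        intro ht
        rw [hSs t (by omega)]
        exact le_trans (card_insert_le _ _) (Nat.succ_le_succ (ih (by omega)))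
    have hSne : (S k).Nonempty := by
      obtain ⟨m, rfl⟩ : ∃ m, k = m + 1 := ⟨k - 1, by omega⟩
      rw [hSs m (by omega)]
      exact insert_nonempty _ _
    refine ⟨hSF k le_rfl, card_pos.mpr hSne, hScard k le_rfl, ?_⟩
    intro T hTF hT1 hTk
    have hTne : T.Nonempty := card_pos.mp hT1
    have hk0 : (0 : ℝ) < k := by exact_mod_cast hk
    have hk1 : (1 : ℝ) ≤ k := by exact_mod_cast hk
    have hq0 : 0 ≤ 1 - 1 / (k : ℝ) := by
      rw [sub_nonneg, div_le_one hk0]; exact hk1
    set W : Finset V → ℝ := fun U => (b - a) * (cov J a U).card with hW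
    have hw : 0 ≤ b - a := by linarith
    have hrec : ∀ t ≤ k, W T - W (S t) ≤ (1 - 1 / (k : ℝ)) ^ t * W T := by
      intro t
      induction t with
      | zero =>
        intro _
        simp only [hW, hS0, cov_empty, card_empty, Nat.cast_zero, mul_zero, sub_zero, pow_zero,
          one_mul, le_refl]
      | succ t ih =>
        intro ht
        have h1 := ih (by omega)
        have h2 := step hab hd (hSF t (by omega)) hTF hTk (hgF t (by omega))
          (hgreedy t (by omega))
        rw [← hSs t (by omega)] at h2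
        have h2' : W T - W (S t) ≤ k * (W (S (t + 1)) - W (S t)) := h2
        have h3 : W T - W (S (t + 1)) ≤ (1 - 1 / (k : ℝ)) * (W T - W (S t)) := by
          have : (1 - 1 / (k : ℝ)) * (W T - W (S t)) = (W T - W (S t)) - (W T - W (S t)) / k := by
            ring
          rw [this]
          have h4 : (W T - W (S t)) / k ≤ W (S (t + 1)) - W (S t) := by
            rw [div_le_iff₀ hk0]; linarith
          linarith
        calc W T - W (S (t + 1)) ≤ (1 - 1 / (k : ℝ)) * (W T - W (S t)) := h3
          _ ≤ (1 - 1 / (k : ℝ)) * ((1 - 1 / (k : ℝ)) ^ t * W T) :=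
            mul_le_mul_of_nonneg_left h1 hq0
          _ = (1 - 1 / (k : ℝ)) ^ (t + 1) * W T := by ring
    have hWT0 : 0 ≤ W T := mul_nonneg hw (Nat.cast_nonneg _)
    have hWTn : W T ≤ (b - a) * J.card := by
      apply mul_le_mul_of_nonneg_left _ hw
      exact_mod_cast card_le_card (filter_subset _ _)
    set E : ℝ := Real.exp (-1) with hE
    have hE0 : 0 < E := Real.exp_pos _
    have hfin : W T - W (S k) ≤ E * W T :=
      le_trans (hrec k le_rfl) (mul_le_mul_of_nonneg_right (pow_le_exp hk) hWT0)
    have hcS : cost J (S k) = b * J.card - W (S k) := cost_eq hab hd hSne (hSF k le_rfl)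
    have hcT : cost J T = b * J.card - W T := cost_eq hab hd hTne hTF
    have hb0 : 0 < b := by linarith
    have hcT0 : 0 ≤ cost J T := by
      rw [hcT]
      have : (0 : ℝ) ≤ a * J.card := by positivity
      nlinarith
    have key : (1 + (b / a - 1) * E) * (b * J.card - W T) - (b * J.card - (1 - E) * W T) =
        (b * E / a) * ((b - a) * J.card - W T) := by
      field_simp
      ring
    have hmain : cost J (S k) ≤ (1 + (b / a - 1) * E) * cost J T := by
      rw [hcS, hcT]
      have h5 : 0 ≤ (b * E / a) * ((b - a) * J.card - W T) :=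
        mul_nonneg (by positivity) (by linarith)
      linarith
    refine ⟨hmain, fun h3a => le_trans hmain ?_⟩
    apply mul_le_mul_of_nonneg_right _ hcT0
    have : b / a - 1 ≤ 2 := by
      rw [sub_le_iff_le_add, div_le_iff₀ ha]; linarith
    nlinarith

end Vale.Agent.Results.P334.TwoDistanceGreedy
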